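import Vale.Agent.P254.Refl.Frame
import Vale.Agent.P254.Uncond.Main

/-!
The strong isotropic constant conjecture, for all large dimensions, for bodies with all but a fixed
number of commuting reflection symmetries.
-/

open MeasureTheory Set Filter Topology
open Function (update)
open scoped Matrix

namespace Vale.Agent.P254.Refl

open Vale.Agent.P254.Sym Vale.Agent.P254.Uncond

variable {n : ℕ}

lemma det_le_prod_diag {S : Matrix (Fin n) (Fin n) ℝ} (h : S.PosSemidef) :
    S.det ≤ ∏ i, S i i := by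
  have h0 : ∀ i, 0 ≤ S i i := fun i => h.diag_nonneg
  rcases h.det_nonneg.eq_or_lt with hd | hd
  · rw [← hd]; exact Finset.prod_nonneg fun i _ => h0 i
  have hP : S.PosDef := h.posDef_iff_det_ne_zero.2 hd.ne'
  have hpos : ∀ i, 0 < S i i := fun i => hP.diag_pos
  set D : Matrix (Fin n) (Fin n) ℝ := Matrix.diagonal fun i => (Real.sqrt (S i i))⁻¹ with hD
  have hDT : Dᴴ = D := by simp [hD]
  have hT : (D * S * D).PosSemidef := by
    have := h.conjTranspose_mul_mul_same D
    rwa [hDT] at this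
  have htr : (D * S * D).trace = n := by
    have : ∀ i, (D * S * D) i i = 1 := fun i => by
      rw [hD, Matrix.mul_diagonal, Matrix.diagonal_mul]
      field_simp
      rw [Real.sq_sqrt (hpos i).le, div_self (hpos i).ne']
    simp [Matrix.trace, this]
  have hdet : (D * S * D).det ≤ 1 := by
    have ht := hT.isHermitian.trace_eq_sum_eigenvalues
    rw [htr] at ht
    simp only [RCLike.ofReal_real_eq_id, id_eq] at ht
    rw [hT.isHermitian.det_eq_prod_eigenvalues]
    simp only [RCLike.ofReal_real_eq_id, id_eq]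
    calc ∏ i, hT.isHermitian.eigenvalues i ≤ ∏ i, Real.exp (hT.isHermitian.eigenvalues i - 1) :=
          Finset.prod_le_prod (fun i _ => hT.eigenvalues_nonneg i) fun i _ => by
            linarith [Real.add_one_le_exp (hT.isHermitian.eigenvalues i - 1)]
      _ = 1 := by
        rw [← Real.exp_sum, Finset.sum_sub_distrib, ← ht]
        simp
  rw [Matrix.det_mul, Matrix.det_mul, hD, Matrix.det_diagonal, Finset.prod_inv_distrib] at hdet
  have hq : 0 < ∏ i, Real.sqrt (S i i) := Finset.prod_pos fun i _ => Real.sqrt_pos.2 (hpos i)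
  have he : (∏ i, Real.sqrt (S i i)) * (∏ i, Real.sqrt (S i i)) = ∏ i, S i i := by
    rw [← Finset.prod_mul_distrib]
    exact Finset.prod_congr rfl fun i _ => Real.mul_self_sqrt (h0 i)
  rw [mul_comm, ← mul_assoc, ← mul_inv, he, inv_mul_le_iff₀ (Finset.prod_pos fun i _ => hpos i),
    mul_one] at hdet
  exact hdet

lemma cov_posSemidef {K : Set (Fin n → ℝ)} (hc : IsCompact K) : (cov K).PosSemidef := by
  refine Matrix.PosSemidef.of_dotProduct_mulVec_nonneg ?_ fun x => ?_
  · ext i j
    simp [cov, Matrix.conjTranspose_apply, mul_comm (_ - bary K j)]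
  · have hint : ∀ F : (Fin n → ℝ) → ℝ, Continuous F → IntegrableOn F K := fun F hF =>
      hF.continuousOn.integrableOn_compact hc
    have e : x ⬝ᵥ cov K *ᵥ x =
        (volume.real K)⁻¹ * ∫ y in K, (∑ i, x i * (y i - bary K i)) ^ 2 := by
      simp only [sq, Finset.sum_mul_sum]
      simp only [dotProduct, Matrix.mulVec, cov, Matrix.of_apply, Finset.mul_sum]
      rw [integral_finsetSum _ fun i _ => hint _ (by fun_prop), Finset.mul_sum]
      refine Finset.sum_congr rfl fun i _ => ?_
      rw [integral_finsetSum _ fun j _ => hint _ (by fun_prop), Finset.mul_sum]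
      refine Finset.sum_congr rfl fun j _ => ?_
      rw [show (fun y : Fin n → ℝ => x i * (y i - bary K i) * (x j * (y j - bary K j))) =
        fun y => x i * x j * ((y i - bary K i) * (y j - bary K j)) from funext fun y => by ring,
        integral_const_mul]
      ring
    rw [show star x = x from funext fun i => star_trivial (x i), e]
    exact mul_nonneg (inv_nonneg.2 measureReal_nonneg) (integral_nonneg fun y => sq_nonneg _)

lemma cov_self (K : Set (Fin n → ℝ)) (i : Fin n) :
    cov K i i = (volume.real K)⁻¹ * ∫ x in K, (x i - bary K i) ^ 2 := by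
  simp [cov, sq]

lemma cov_self_le {K : Set (Fin n → ℝ)} (hc : IsCompact K) (hV : 0 < volume.real K) (i : Fin n)
    {a : ℝ} (h : ∀ x ∈ K, |x i - a| ≤ 1) : cov K i i ≤ 1 := by
  have hint : ∀ F : (Fin n → ℝ) → ℝ, Continuous F → IntegrableOn F K := fun F hF =>
    hF.continuousOn.integrableOn_compact hc
  set b := bary K i with hb
  have hbV : ∫ x in K, x i = b * volume.real K := by
    rw [hb, bary]; field_simp
  have e : ∫ x in K, (x i - b) ^ 2 = (∫ x in K, (x i - a) ^ 2) - volume.real K * (b - a) ^ 2 := by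
    rw [show (fun x : Fin n → ℝ => (x i - b) ^ 2) =
      fun x => (x i - a) ^ 2 - (2 * (b - a) * x i - (b ^ 2 - a ^ 2)) from funext fun x => by ring]
    rw [integral_sub (hint _ (by fun_prop)) (hint _ (by fun_prop)),
      integral_sub (hint _ (by fun_prop)) (hint _ (by fun_prop)), integral_const_mul, hbV,
      setIntegral_const, smul_eq_mul]
    ring
  have h1 : ∫ x in K, (x i - a) ^ 2 ≤ volume.real K := by
    have := setIntegral_mono_on (hint (fun x => (x i - a) ^ 2) (by fun_prop))
      (hint (fun _ => (1:ℝ)) continuous_const) hc.measurableSet fun x hx => by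
        nlinarith [abs_le.1 (h x hx)]
    simpa using this
  rw [cov_self, ← hb, e, inv_mul_le_iff₀ hV, mul_one]
  nlinarith [mul_nonneg hV.le (sq_nonneg (b - a))]

/-- The product of the variances over the squared volume. -/
noncomputable def dq (K : Set (Fin n → ℝ)) : ℝ := (∏ i, cov K i i) / volume.real K ^ 2

lemma interior_of_pos {K : Set (Fin n → ℝ)} (hc : IsCompact K) (hv : Convex ℝ K)
    (hV : 0 < volume.real K) : (interior K).Nonempty := by
  by_contra h
  rw [not_nonempty_iff_eq_empty] at h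
  have hsub : K ⊆ frontier K := fun x hx => ⟨subset_closure hx, by simp [h]⟩
  have := measure_mono_null hsub (hv.addHaar_frontier volume)
  simp [measureReal_def, this] at hV

/-- Symmetrising all free coordinates. -/
theorem exists_uncond {n : ℕ} (hn : 1 ≤ n) :
    ∀ (m : ℕ) (J : Finset (Fin (n + 1))) (K : Set (Fin (n + 1) → ℝ)) (a : Fin (n + 1) → ℝ),
      Jᶜ.card = m → IsCompact K → Convex ℝ K → 0 < volume.real K → FlipOn J K → Framed J K a →
      ∃ U : Set (Fin (n + 1) → ℝ), IsCompact U ∧ Convex ℝ U ∧ (interior U).Nonempty ∧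
        SignInvariant U ∧ dq K ≤ (36 * ((n + 1 : ℕ) : ℝ) ^ 2) ^ m * dq U := by
  intro m
  induction m with
  | zero =>
    intro J K a hJ hc hv hV hf _
    have : J = Finset.univ := by
      rw [← compl_compl J, Finset.card_eq_zero.1 hJ, Finset.compl_empty]
    subst this
    exact ⟨K, hc, hv, interior_of_pos hc hv hV, fun i x hx => hf i (Finset.mem_univ i) x hx,
      by simp⟩
  | succ m ih =>
    intro J K a hJ hc hv hV hf hfr
    obtain ⟨i, hi⟩ := Finset.card_pos.1 (show 0 < Jᶜ.card by omega)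
    rw [Finset.mem_compl] at hi
    have hVS := volume_symm (i := i) hc hv
    have hS := isCompact_symm (i := i) hc
    have hmem : ∀ q, q ∈ K → update q i 0 ∈ symm i K := fun q hq =>
      ⟨q i, by simp [hq], by simp [hq]⟩
    have hfr' : Framed (insert i J) (symm i K) (update a i 0) :=
      { mem := hmem a hfr.mem
        edge := fun k hk => by
          simp only [Finset.mem_insert, not_or] at hk
          convert hmem _ (hfr.edge k hk.2) using 1
          funext l
          rcases eq_or_ne l i with rfl | h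
          · simp [Ne.symm hk.1]
          · simp [h]
        box := fun x ⟨b, hb, _⟩ k hk => by
          simp only [Finset.mem_insert, not_or] at hk
          have := hfr.box _ hb k hk.2
          simpa [hk.1] using this }
    have hcard : (insert i J)ᶜ.card = m := by
      rw [Finset.compl_insert, Finset.card_erase_of_mem (Finset.mem_compl.2 hi), hJ]
      rfl
    obtain ⟨U, hU1, hU2, hU3, hU4, hU5⟩ := ih (insert i J) (symm i K) (update a i 0) hcard hS
      (convex_symm hv) (hVS ▸ hV) (flipOn_symm hf hi) hfr'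
    refine ⟨U, hU1, hU2, hU3, hU4, ?_⟩
    have hother : ∀ k, k ≠ i → cov (symm i K) k k = cov K k k := by
      intro k hk
      have hb : bary (symm i K) k = bary K k := by
        rw [bary, bary, hVS, integral_symm hc hv (continuous_apply k)
          fun x c => Function.update_of_ne hk c x]
      rw [cov_self, cov_self, hb, hVS, integral_symm hc hv (by fun_prop)
        fun x c => by rw [Function.update_of_ne hk c x]]
    have hC : (0:ℝ) < 36 * ((n + 1 : ℕ) : ℝ) ^ 2 := by positivity
    have hlow : 1 ≤ 36 * ((n + 1 : ℕ) : ℝ) ^ 2 * cov (symm i K) i i := by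
      have := second_symm (by omega : 2 ≤ n + 1) hc hv hfr.mem (hfr.edge i hi)
        (bary (symm i K) i)
      rw [cov_self, hVS]
      rw [hVS] at this
      rw [show 36 * ((n + 1 : ℕ) : ℝ) ^ 2 * ((volume.real K)⁻¹ *
        ∫ x in symm i K, (x i - bary (symm i K) i) ^ 2) = (volume.real K)⁻¹ *
        (36 * ((n + 1 : ℕ) : ℝ) ^ 2 * ∫ x in symm i K, (x i - bary (symm i K) i) ^ 2) by ring,
        le_inv_mul_iff₀ hV, mul_one]
      exact this
    have hone : dq K ≤ 36 * ((n + 1 : ℕ) : ℝ) ^ 2 * dq (symm i K) := by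
      have hnn : ∀ k, 0 ≤ cov K k k := fun k => (cov_posSemidef hc).diag_nonneg
      rw [dq, dq, hVS, ← mul_div_assoc]
      refine div_le_div_of_nonneg_right ?_ (sq_nonneg _)
      rw [← Finset.mul_prod_erase _ _ (Finset.mem_univ i),
        ← Finset.mul_prod_erase _ (fun k => cov (symm i K) k k) (Finset.mem_univ i), ← mul_assoc,
        Finset.prod_congr rfl fun k hk => hother k (Finset.ne_of_mem_erase hk)]
      exact mul_le_mul_of_nonneg_right
        ((cov_self_le hc hV i fun x hx => hfr.box x hx i hi).trans hlow)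
        (Finset.prod_nonneg fun k _ => hnn k)
    refine hone.trans ((mul_le_mul_of_nonneg_left hU5 hC.le).trans (le_of_eq ?_))
    ring

/-- Strictly below the simplex: all but `m` reflections, all large dimensions. -/
theorem few_free (K₀ : Knots) (hR : Requirement (21 / 40) (774 / 10000)) (m : ℕ) :
    ∃ N : ℕ, ∀ n : ℕ, N ≤ n → ∀ (B : Set (Fin n → ℝ)) (J : Finset (Fin n)), n ≤ J.card + m →
      Convex ℝ B → IsCompact B → (interior B).Nonempty → FlipOn J B →
      ∀ (M : Matrix (Fin n) (Fin n) ℝ), M.det ≠ 0 → ∀ b : Fin n → ℝ,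
        isoConst ((fun x => M *ᵥ x + b) '' B) < isoConst (cornerSimplex n) := by
  set γ : ℝ := 774 / 10000 - 738632 / 10000000 with hγ
  have hγ0 : 0 < γ := by norm_num [hγ]
  have hr : 1 < Real.exp (2 * γ) := Real.one_lt_exp_iff.2 (by linarith)
  have ht := (tendsto_pow_const_div_const_pow_of_one_lt (2 * m) hr).eventually
    (gt_mem_nhds (show (0 : ℝ) < 1 / ((36:ℝ) ^ m * Real.exp 4) by positivity))
  obtain ⟨N, hN⟩ := eventually_atTop.1 ht
  refine ⟨max N 2, fun n hn B J hJ hB hco hi hf M hM b => ?_⟩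
  simp only [max_le_iff] at hn
  obtain ⟨k, rfl⟩ : ∃ k, n = k + 1 := ⟨n - 1, by omega⟩
  have hvol : ∀ S : Set (Fin (k + 1) → ℝ), IsCompact S → (interior S).Nonempty →
      0 < volume.real S := fun S hS hS' =>
    ENNReal.toReal_pos ((isOpen_interior.measure_pos volume hS').trans_le
      (measure_mono interior_subset)).ne' hS.measure_lt_top.ne
  rw [Three.isoConst_affine M hM b B hco (hvol B hco hi).ne']
  obtain ⟨A, a, hA, hfl, hfr⟩ := exists_frame hco hB hi hf
  rw [← Three.isoConst_affine A hA 0 B hco (hvol B hco hi).ne']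
  set B' := (fun x => A *ᵥ x + 0) '' B with hB'
  have hco' : IsCompact B' := hco.image (by fun_prop)
  have hcv : Convex ℝ B' := by
    have := hB.linear_image A.mulVecLin
    rw [Matrix.coe_mulVecLin] at this
    simpa [hB'] using this
  have hV : 0 < volume.real B' := by
    have := Three.integral_affine A hA 0 B fun _ => (1:ℝ)
    simp only [setIntegral_const, smul_eq_mul, mul_one] at this
    rw [this]
    exact mul_pos (abs_pos.2 hA) (hvol B hco hi)
  obtain ⟨U, hU1, hU2, hU3, hU4, hU5⟩ :=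
    exists_uncond (by omega : 1 ≤ k) _ J B' a rfl hco' hcv hV hfl hfr
  obtain ⟨hpos, hle⟩ := log_ratio_le (coordBound_of_requirement sectionFacts hR (k + 1))
    (continuum K₀ (k + 1)) hU2 hU1 hU4 hU3
  have hdqU : dq U = (cov U).det / volume.real U ^ 2 := by
    rw [dq, (cov_eq hU2 hU1 hU4 (Sym.volume_pos hU2 hU1 hU4 hU3)).2, Matrix.det_diagonal]
    simp
  have hcard : Jᶜ.card ≤ m := by
    rw [Finset.card_compl, Fintype.card_fin]; omega
  set C : ℝ := 36 * ((k + 1 : ℕ) : ℝ) ^ 2 with hC
  have hC1 : 1 ≤ C := by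
    have : (1:ℝ) ≤ ((k + 1 : ℕ) : ℝ) := by exact_mod_cast (by omega : 1 ≤ k + 1)
    rw [hC]; nlinarith
  have h1 : (cov B').det / volume.real B' ^ 2 ≤ C ^ m * dq U := by
    refine le_trans ?_ (hU5.trans (mul_le_mul_of_nonneg_right
      (pow_le_pow_right₀ hC1 hcard) (hdqU ▸ hpos.le)))
    rw [dq]
    exact div_le_div_of_nonneg_right (det_le_prod_diag (cov_posSemidef hco')) (sq_nonneg _)
  have h2 : dq U ≤ Real.exp (-(2 * ((k + 1 : ℕ) : ℝ) * (1 + γ))) := by
    rw [hdqU, ← Real.exp_log hpos]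
    exact Real.exp_le_exp.2 hle
  obtain ⟨j, rfl⟩ : ∃ j, k = j + 1 := ⟨k - 1, by omega⟩
  rw [Orlicz.isoConst_simplex, isoConst]
  refine Real.rpow_lt_rpow (div_nonneg (cov_posSemidef hco').det_nonneg (sq_nonneg _)) ?_
    (by positivity)
  have hn0 : (0:ℝ) < ((j + 1 + 1 : ℕ) : ℝ) := by positivity
  have h3 := simplex_log_ge (show 0 < j + 1 + 1 by omega)
  have hlp := log_two_pi_gt
  have hinv : 1 / ((j + 1 + 1 : ℕ) : ℝ) ≤ 1 := by
    rw [div_le_one hn0]; exact_mod_cast (by omega : 1 ≤ j + 1 + 1)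
  have h4 : Real.exp (-(2 * ((j + 1 + 1 : ℕ) : ℝ)) - 4) ≤
      ((j + 2).factorial : ℝ) ^ 2 / (((j:ℝ) + 3) ^ (j + 3) * ((j:ℝ) + 4) ^ (j + 2)) := by
    have e : ((j + 2).factorial : ℝ) ^ 2 / (((j:ℝ) + 3) ^ (j + 3) * ((j:ℝ) + 4) ^ (j + 2)) =
        ((j + 1 + 1).factorial : ℝ) ^ 2 / ((((j + 1 + 1 : ℕ) : ℝ) + 1) ^ (j + 1 + 1 + 1) *
          (((j + 1 + 1 : ℕ) : ℝ) + 2) ^ (j + 1 + 1)) := by push_cast; ring_nf
    rw [e, ← Real.exp_log (show (0:ℝ) < ((j + 1 + 1).factorial : ℝ) ^ 2 / ((((j + 1 + 1 : ℕ) : ℝ) + 1) ^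
      (j + 1 + 1 + 1) * (((j + 1 + 1 : ℕ) : ℝ) + 2) ^ (j + 1 + 1)) by positivity)]
    exact Real.exp_le_exp.2 (by linarith)
  refine lt_of_le_of_lt h1 (lt_of_lt_of_le ?_ h4)
  refine lt_of_le_of_lt (mul_le_mul_of_nonneg_left h2 (by positivity)) ?_
  have h5 := hN _ hn.1
  rw [div_lt_div_iff₀ (by positivity) (by positivity), one_mul] at h5
  rw [hC, mul_pow, ← pow_mul]
  rw [← Real.exp_nat_mul] at h5
  have e1 : Real.exp (-(2 * ((j + 1 + 1 : ℕ) : ℝ) * (1 + γ))) =
      Real.exp (-(2 * ((j + 1 + 1 : ℕ) : ℝ)) - 4) * Real.exp 4 /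
        Real.exp (((j + 1 + 1 : ℕ) : ℝ) * (2 * γ)) := by
    rw [← Real.exp_add, ← Real.exp_sub]; congr 1; ring
  rw [e1, ← mul_div_assoc, div_lt_iff₀ (Real.exp_pos _)]
  calc (36:ℝ) ^ m * ((j + 1 + 1 : ℕ) : ℝ) ^ (2 * m) *
        (Real.exp (-(2 * ((j + 1 + 1 : ℕ) : ℝ)) - 4) * Real.exp 4)
      = Real.exp (-(2 * ((j + 1 + 1 : ℕ) : ℝ)) - 4) *
          (((j + 1 + 1 : ℕ) : ℝ) ^ (2 * m) * ((36:ℝ) ^ m * Real.exp 4)) := by ring
    _ < _ := mul_lt_mul_of_pos_left h5 (Real.exp_pos _)

end Vale.Agent.P254.Refl
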