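import Vale.Agent.P254.Refl.Step

/-!
Coordinates in which the free part of a body lies in a cube and contains the corner edges.
-/

open MeasureTheory Set Filter Topology
open Function (update)
open scoped Matrix

namespace Vale.Agent.P254.Refl

variable {n : ℕ}

/-- The free coordinates lie within `1` of `a`, and the edges from `a` lie in the body. -/
structure Framed (J : Finset (Fin n)) (K : Set (Fin n → ℝ)) (a : Fin n → ℝ) : Prop where
  mem : a ∈ K
  edge : ∀ i, i ∉ J → a + Pi.single i 1 ∈ K
  box : ∀ x ∈ K, ∀ i, i ∉ J → |x i - a i| ≤ 1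

/-- Every body with reflections in `J` is framed after a linear change of the other coordinates. -/
theorem exists_frame {K : Set (Fin n → ℝ)} (hc : IsCompact K) (hv : Convex ℝ K)
    (hi : (interior K).Nonempty) {J : Finset (Fin n)} (hJ : FlipOn J K) :
    ∃ (A : Matrix (Fin n) (Fin n) ℝ) (a : Fin n → ℝ), A.det ≠ 0 ∧
      FlipOn J ((fun x => A *ᵥ x + 0) '' K) ∧ Framed J ((fun x => A *ᵥ x + 0) '' K) a := by
  set K₀ := K ∩ {x | ∀ j ∈ J, x j = 0} with hK₀
  have hz : ∀ x, ∀ j ∈ J, zeroOn J x j = 0 := fun x j hj => by simp [zeroOn, hj]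
  have hzK : ∀ x ∈ K, zeroOn J x ∈ K₀ := fun x hx => ⟨hJ.zero_mem hv hx J subset_rfl, hz x⟩
  have hc₀ : IsCompact K₀ := by
    refine hc.inter_right ?_
    simp only [Set.ofPred_forall]
    exact isClosed_iInter fun j => isClosed_iInter fun _ =>
      isClosed_eq (continuous_apply j) continuous_const
  obtain ⟨p, hp⟩ := hi
  let W : (Option (Fin n) → Fin n → ℝ) → Matrix (Fin n) (Fin n) ℝ := fun v =>
    Matrix.of fun l q => if q ∈ J then (if l = q then 1 else 0) else v (some q) l - v none l
  have hcont : Continuous fun v => |(W v).det| := by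
    refine (Continuous.matrix_det (continuous_matrix fun l q => ?_)).abs
    simp only [W, Matrix.of_apply]
    split <;> fun_prop
  obtain ⟨v, hvK, hmax⟩ := (isCompact_univ_pi fun _ : Option (Fin n) => hc₀).exists_isMaxOn
    ⟨fun _ => zeroOn J p, fun _ _ => hzK p (interior_subset hp)⟩ hcont.continuousOn
  have hv' : ∀ o, v o ∈ K₀ := fun o => hvK o trivial
  have hd : (W v).det ≠ 0 := by
    obtain ⟨r, hr, hb⟩ := Metric.mem_nhds_iff.1 (mem_interior_iff_mem_nhds.1 hp)
    let u : Option (Fin n) → Fin n → ℝ :=
      fun o => zeroOn J (o.elim p fun i => p + Pi.single i (r / 2))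
    have hu : u ∈ Set.pi univ fun _ : Option (Fin n) => K₀ := by
      intro o _
      refine hzK _ ?_
      cases o with
      | none => exact interior_subset hp
      | some i =>
        refine hb ?_
        rw [Metric.mem_ball, dist_eq_norm]
        show ‖p + (Pi.single i (r / 2) : Fin n → ℝ) - p‖ < r
        rw [add_sub_cancel_left, Pi.norm_single, Real.norm_eq_abs, abs_of_pos (by linarith)]
        linarith
    have e : W u = Matrix.diagonal fun l => if l ∈ J then 1 else r / 2 := by
      ext l q
      rcases eq_or_ne l q with rfl | hlq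
      · by_cases hl : l ∈ J <;> simp [W, u, hl, zeroOn]
      · by_cases hq : q ∈ J <;> by_cases hl : l ∈ J <;> simp [W, u, hq, hl, hlq, zeroOn]
    have h2 := hmax hu
    simp only [mem_ofPred_eq, e, Matrix.det_diagonal] at h2
    intro h0
    rw [h0, abs_zero] at h2
    have : 0 < |∏ l, (if l ∈ J then (1:ℝ) else r / 2)| :=
      abs_pos.2 (Finset.prod_ne_zero_iff.2 fun l _ => by split <;> linarith)
    linarith
  set A := (W v)⁻¹ with hA
  have hu : IsUnit (W v).det := hd.isUnit
  have hWA : ∀ x, W v *ᵥ (A *ᵥ x) = x := fun x => by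
    rw [Matrix.mulVec_mulVec, hA, Matrix.mul_nonsing_inv _ hu, Matrix.one_mulVec]
  have hAW : ∀ x, A *ᵥ (W v *ᵥ x) = x := fun x => by
    rw [Matrix.mulVec_mulVec, hA, Matrix.nonsing_inv_mul _ hu, Matrix.one_mulVec]
  have hcolJ : ∀ j ∈ J, ∀ t : ℝ, W v *ᵥ Pi.single j t = Pi.single j t := fun j hj t => by
    funext l
    simp only [Matrix.mulVec_single]
    simp [W, hj, Pi.single_apply]
  have hrow : ∀ x, ∀ j ∈ J, (W v *ᵥ x) j = x j := by
    intro x j hj
    simp only [Matrix.mulVec, dotProduct, W, Matrix.of_apply]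
    rw [Finset.sum_eq_single j]
    · simp [hj]
    · intro q _ hq
      by_cases hq' : q ∈ J
      · simp [hq', hq.symm]
      · simp [hq', (hv' (some q)).2 j hj, (hv' none).2 j hj]
    · simp
  refine ⟨A, A *ᵥ v none, ?_, ?_, ⟨⟨v none, (hv' none).1, by simp⟩, fun i hiJ => ?_, ?_⟩⟩
  · intro h0
    have := congrArg Matrix.det (Matrix.mul_nonsing_inv (W v) hu)
    rw [← hA, Matrix.det_mul, h0, mul_zero, Matrix.det_one] at this
    exact zero_ne_one this
  · rintro j hj _ ⟨x, hx, rfl⟩
    refine ⟨_, hJ j hj x hx, ?_⟩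
    simp only [add_zero]
    set y := A *ᵥ x with hy
    have hxy : x = W v *ᵥ y := (hWA x).symm
    have e : update x j (-x j) = W v *ᵥ update y j (-y j) := by
      have e1 : update y j (-y j) = y + Pi.single j (-2 * y j) := by
        funext l
        rcases eq_or_ne l j with rfl | h
        · simp; ring
        · simp [h]
      have hxj : x j = y j := by rw [hxy, hrow y j hj]
      rw [e1, Matrix.mulVec_add, ← hxy, hcolJ j hj]
      funext l
      rcases eq_or_ne l j with rfl | h
      · simp [hxj]; ring
      · simp [h]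
    rw [e, hAW]
  · refine ⟨v (some i), (hv' (some i)).1, ?_⟩
    simp only [add_zero]
    have : W v *ᵥ Pi.single i 1 = v (some i) - v none := by
      funext l
      simp [W, hiJ]
    have h2 : A *ᵥ (v (some i) - v none) = Pi.single i 1 := by rw [← this, hAW]
    rw [Matrix.mulVec_sub] at h2
    rw [← h2]; abel
  · rintro _ ⟨x, hx, rfl⟩ i hiJ
    simp only [add_zero]
    set c := A *ᵥ (zeroOn J x - v none) with hcdef
    have hci : c i = (A *ᵥ x) i - (A *ᵥ v none) i := by
      have hdiff : A *ᵥ (x - zeroOn J x) = x - zeroOn J x := by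
        have : W v *ᵥ (x - zeroOn J x) = x - zeroOn J x := by
          have e : x - zeroOn J x = ∑ j ∈ J, Pi.single j (x j) := by
            funext l
            by_cases hl : l ∈ J <;> simp [zeroOn, hl, Pi.single_apply]
          rw [e, Matrix.mulVec_sum]
          exact Finset.sum_congr rfl fun j hj => hcolJ j hj _
        nth_rewrite 1 [← this]
        rw [hAW]
      have h0 := congrFun hdiff i
      rw [Matrix.mulVec_sub] at h0
      simp only [hcdef, Matrix.mulVec_sub, Pi.sub_apply] at h0 ⊢
      simp [zeroOn, hiJ] at h0 ⊢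
      linarith
    rw [← hci]
    let u : Option (Fin n) → Fin n → ℝ := update v (some i) (zeroOn J x)
    have hu' : u ∈ Set.pi univ fun _ : Option (Fin n) => K₀ := by
      intro o _
      rcases eq_or_ne o (some i) with rfl | ho
      · simpa [u] using hzK x hx
      · simpa [u, Function.update_of_ne ho] using hv' o
    have e2 : W u = (W v).updateCol i (W v *ᵥ c) := by
      ext q j
      rw [hcdef, hWA, Matrix.updateCol_apply]
      rcases eq_or_ne j i with rfl | hj
      · simp [W, u, hiJ]
      · simp [W, u, hj]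
    have e3 : (W u).det = (W v).det * c i := by
      rw [e2, ← Matrix.cramer_apply, Matrix.cramer_eq_adjugate_mulVec, Matrix.mulVec_mulVec,
        Matrix.adjugate_mul, Matrix.smul_mulVec, Matrix.one_mulVec]
      simp
    have h2 := hmax hu'
    simp only [mem_ofPred_eq, e3, abs_mul] at h2
    nlinarith [abs_pos.2 hd]

end Vale.Agent.P254.Refl
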