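import Vale.Agent.P248.Poly
import Vale.Agent.P254.Three.Affine

/-!
Symmetrisation in one coordinate of a body with a long chord in that coordinate: the volume and
the moments of the other coordinates stay, the second moment of this coordinate drops at most by
the factor `36 n ^ 2`.
-/

open MeasureTheory Set Filter Topology
open Function (update)
open scoped Matrix

namespace Vale.Agent.P254.Refl

variable {n : ℕ}

/-- Invariance under the sign changes of the coordinates in `J`. -/
def FlipOn (J : Finset (Fin n)) (K : Set (Fin n → ℝ)) : Prop :=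
  ∀ i ∈ J, ∀ x ∈ K, update x i (-x i) ∈ K

/-- The coordinates in `A` set to zero. -/
def zeroOn (A : Finset (Fin n)) (x : Fin n → ℝ) : Fin n → ℝ := fun l => if l ∈ A then 0 else x l

lemma FlipOn.zero_mem {J : Finset (Fin n)} {K : Set (Fin n → ℝ)} (h : FlipOn J K)
    (hK : Convex ℝ K) {x : Fin n → ℝ} (hx : x ∈ K) :
    ∀ A : Finset (Fin n), A ⊆ J → zeroOn A x ∈ K := by
  intro A
  induction A using Finset.induction_on with
  | empty =>
    intro _
    have e : zeroOn ∅ x = x := by funext l; simp [zeroOn]
    rwa [e]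
  | insert a A ha ih =>
    intro hA
    have h0 := ih fun b hb => hA (Finset.mem_insert_of_mem hb)
    have h1 := h a (hA (Finset.mem_insert_self a A)) _ h0
    have h2 := hK h0 h1 (show (0:ℝ) ≤ 1 / 2 by norm_num) (show (0:ℝ) ≤ 1 / 2 by norm_num)
      (by norm_num)
    convert h2 using 1
    funext l
    rcases eq_or_ne l a with rfl | hl
    · simp [zeroOn, ha]
    · simp [zeroOn, hl]
      split <;> ring

/-- Symmetrisation of `K` in the coordinate `i`. -/
def symm (i : Fin n) (K : Set (Fin n → ℝ)) : Set (Fin n → ℝ) :=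
  {x | ∃ a, update x i a ∈ K ∧ update x i (a + 2 * |x i|) ∈ K}

variable {K : Set (Fin n → ℝ)} {i : Fin n}

lemma isCompact_symm (hK : IsCompact K) : IsCompact (symm i K) := by
  obtain ⟨R, hR⟩ := hK.isBounded.subset_closedBall 0
  let G : Set ((Fin n → ℝ) × ℝ) :=
    {p | update p.1 i p.2 ∈ K ∧ update p.1 i (p.2 + 2 * |p.1 i|) ∈ K}
  have hG : IsCompact G := by
    refine (((isCompact_closedBall (0 : Fin n → ℝ) R).prod (isCompact_Icc (a := -R) (b := R)))).of_isClosed_subset
      ((hK.isClosed.preimage (by fun_prop)).inter (hK.isClosed.preimage (by fun_prop))) ?_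
    rintro ⟨x, a⟩ ⟨h1, h2⟩
    have h1 := mem_closedBall_zero_iff.1 (hR h1)
    have h2 := mem_closedBall_zero_iff.1 (hR h2)
    have hR0 : 0 ≤ R := (norm_nonneg _).trans h1
    have ha := (norm_le_pi_norm _ i).trans h1
    have hb := (norm_le_pi_norm _ i).trans h2
    simp only [Function.update_self, Real.norm_eq_abs, abs_le] at ha hb
    refine ⟨mem_closedBall_zero_iff.2 ((pi_norm_le_iff_of_nonneg hR0).2 fun j => ?_), ha⟩
    rcases eq_or_ne j i with rfl | hj
    · rw [Real.norm_eq_abs]; simp only at ha hb ⊢; linarith [ha.1, hb.2, abs_nonneg (x j)]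
    · have := (norm_le_pi_norm _ j).trans h1
      simpa [hj] using this
  have := hG.image continuous_fst
  convert this using 1
  ext x
  simp [symm, G]

lemma convex_symm (hK : Convex ℝ K) : Convex ℝ (symm i K) := by
  rintro x ⟨a, ha, ha'⟩ y ⟨b, hb, hb'⟩ p q hp hq hpq
  have hlo := hK ha hb hp hq hpq
  have hhi := hK ha' hb' hp hq hpq
  set z := p • x + q • y with hz
  set lo := p * a + q * b with hlod
  set hi := p * (a + 2 * |x i|) + q * (b + 2 * |y i|) with hhid
  have elo : p • update x i a + q • update y i b = update z i lo := by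
    funext l; rcases eq_or_ne l i with rfl | h <;> simp [*]
  have ehi : p • update x i (a + 2 * |x i|) + q • update y i (b + 2 * |y i|) = update z i hi := by
    funext l; rcases eq_or_ne l i with rfl | h <;> simp [*]
  rw [elo] at hlo
  rw [ehi] at hhi
  have hz2 : |z i| ≤ p * |x i| + q * |y i| := by
    simp only [hz, Pi.add_apply, Pi.smul_apply, smul_eq_mul]
    exact (abs_add_le _ _).trans (by rw [abs_mul, abs_mul, abs_of_nonneg hp, abs_of_nonneg hq])
  refine ⟨lo, hlo, ?_⟩
  rcases eq_or_lt_of_le (show lo ≤ hi by rw [hlod, hhid]; nlinarith [abs_nonneg (x i), abs_nonneg (y i)])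
    with h | h
  · have : |z i| = 0 := by
      refine le_antisymm ?_ (abs_nonneg _)
      rw [hlod, hhid] at h; linarith
    rw [this, mul_zero, add_zero]; exact hlo
  · set r := 2 * |z i| / (hi - lo) with hr
    have hr1 : r ≤ 1 := by
      rw [hr, div_le_one (sub_pos.2 h), hlod, hhid]; linarith
    have hr0 : 0 ≤ r := div_nonneg (by positivity) (sub_pos.2 h).le
    convert hK hlo hhi (sub_nonneg.2 hr1) hr0 (by ring) using 1
    funext l
    rcases eq_or_ne l i with rfl | hl
    · simp only [Function.update_self, Pi.add_apply, Pi.smul_apply, smul_eq_mul]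
      have : r * (hi - lo) = 2 * |z l| := div_mul_cancel₀ _ (sub_pos.2 h).ne'
      linarith
    · simp [hl]; ring

lemma flipOn_symm {J : Finset (Fin n)} (hJ : FlipOn J K) (hi : i ∉ J) :
    FlipOn (insert i J) (symm i K) := by
  intro j hj x ⟨a, ha, hb⟩
  rcases eq_or_ne j i with rfl | hji
  · refine ⟨a, ?_, ?_⟩ <;> simpa [Function.update_idem] using (by assumption : update x j _ ∈ K)
  · have hj' : j ∈ J := (Finset.mem_insert.1 hj).resolve_left hji
    refine ⟨a, ?_, ?_⟩
    · have := hJ j hj' _ ha
      simp only [Function.update_of_ne hji, Function.update_of_ne hji.symm] at this ⊢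
      rwa [Function.update_comm hji]
    · have := hJ j hj' _ hb
      simp only [Function.update_of_ne hji, Function.update_of_ne hji.symm] at this ⊢
      rwa [Function.update_comm hji]

lemma volume_fibre {S : Set ℝ} (hc : IsCompact S) (hv : Convex ℝ S) :
    volume.real {t : ℝ | ∃ a, a ∈ S ∧ a + 2 * |t| ∈ S} = volume.real S := by
  rcases S.eq_empty_or_nonempty with rfl | hne
  · simp
  obtain ⟨l, h, hlh, rfl⟩ : ∃ l h, l ≤ h ∧ S = Icc l h := by
    have e := eq_Icc_of_connected_compact (hv.isConnected hne) hc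
    refine ⟨_, _, ?_, e⟩
    by_contra hl
    rw [Icc_eq_empty hl] at e
    exact hne.ne_empty e
  have e : {t : ℝ | ∃ a, a ∈ Icc l h ∧ a + 2 * |t| ∈ Icc l h} = Icc (-((h - l) / 2)) ((h - l) / 2) := by
    ext t
    simp only [mem_Icc, mem_ofPred_eq, ← abs_le]
    constructor
    · rintro ⟨a, ⟨h1, h2⟩, h3, h4⟩; linarith
    · intro ht
      exact ⟨l, ⟨le_rfl, hlh⟩, by linarith [abs_nonneg t], by linarith⟩
  rw [e, Real.volume_real_Icc_of_le (by linarith), Real.volume_real_Icc_of_le hlh]
  ring

/-- Functions of the other coordinates keep their integrals. -/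
theorem integral_symm {n : ℕ} {K : Set (Fin (n + 1) → ℝ)} {i : Fin (n + 1)} (hc : IsCompact K)
    (hv : Convex ℝ K) {f : (Fin (n + 1) → ℝ) → ℝ} (hf : Continuous f)
    (hfi : ∀ x a, f (update x i a) = f x) :
    ∫ x in symm i K, f x = ∫ x in K, f x := by
  have hupd : ∀ y t a, update (P248.ins i t y) i a = P248.ins i a y := fun y t a => by
    funext l
    rcases Fin.eq_self_or_eq_succAbove i l with rfl | ⟨p, rfl⟩
    · simp
    · simp [Fin.succAbove_ne]
  have key : ∀ A : Set (Fin (n + 1) → ℝ), IsCompact A → ∫ x in A, f x =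
      ∫ y : Fin n → ℝ, volume.real {t | P248.ins i t y ∈ A} * f (P248.ins i 0 y) := by
    intro A hA
    have hint : Integrable (A.indicator f) :=
      (integrable_indicator_iff hA.measurableSet).2 (hf.continuousOn.integrableOn_compact hA)
    rw [← integral_indicator hA.measurableSet, P248.integral_slices hint i]
    refine integral_congr_ae (Eventually.of_forall fun y => ?_)
    have e : (fun t => A.indicator f (P248.ins i t y)) =
        {t | P248.ins i t y ∈ A}.indicator fun _ => f (P248.ins i 0 y) := by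
      funext t
      have h0 : f (P248.ins i t y) = f (P248.ins i 0 y) := by
        rw [← hfi (P248.ins i t y) 0, hupd]
      by_cases h : P248.ins i t y ∈ A <;> simp [h, h0]
    have hins : Continuous fun t => P248.ins i t y := by
      refine continuous_pi fun l => ?_
      rcases Fin.eq_self_or_eq_succAbove i l with rfl | ⟨p, rfl⟩
      · simp only [P248.ins_same]; exact continuous_id
      · simp only [P248.ins_succAbove]; exact continuous_const
    dsimp only
    rw [e, integral_indicator (show MeasurableSet {t | P248.ins i t y ∈ A} from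
      (hA.isClosed.preimage hins).measurableSet), setIntegral_const,
      smul_eq_mul]
  rw [key _ (isCompact_symm hc), key _ hc]
  refine integral_congr_ae (Eventually.of_forall fun y => ?_)
  dsimp only
  congr 1
  have e : {t | P248.ins i t y ∈ symm i K} =
      {t : ℝ | ∃ a, a ∈ {t | P248.ins i t y ∈ K} ∧ a + 2 * |t| ∈ {t | P248.ins i t y ∈ K}} := by
    ext t; simp [symm, hupd]
  rw [e]
  have hins : Continuous fun t => P248.ins i t y := by
    refine continuous_pi fun l => ?_
    rcases Fin.eq_self_or_eq_succAbove i l with rfl | ⟨p, rfl⟩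
    · simp only [P248.ins_same]; exact continuous_id
    · simp only [P248.ins_succAbove]; exact continuous_const
  refine volume_fibre ?_ ?_
  · obtain ⟨R, hR⟩ := hc.isBounded.subset_closedBall 0
    refine (isCompact_Icc (a := -R) (b := R)).of_isClosed_subset (hc.isClosed.preimage hins) ?_
    intro t ht
    have := (norm_le_pi_norm _ i).trans (mem_closedBall_zero_iff.1 (hR ht))
    simpa [abs_le] using this
  · intro s hs t ht p q hp hq hpq
    show P248.ins i (p • s + q • t) y ∈ K
    convert hv hs ht hp hq hpq using 1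
    funext l
    rcases Fin.eq_self_or_eq_succAbove i l with rfl | ⟨r, rfl⟩
    · simp
    · simp [← add_mul, hpq]

lemma volume_symm {n : ℕ} {K : Set (Fin (n + 1) → ℝ)} {i : Fin (n + 1)} (hc : IsCompact K)
    (hv : Convex ℝ K) : volume.real (symm i K) = volume.real K := by
  simpa using integral_symm hc hv (i := i) (f := fun _ => (1:ℝ)) continuous_const fun _ _ => rfl

/-- A chord of length one in the coordinate `i` gives a second moment after symmetrisation. -/
theorem second_symm (hn : 2 ≤ n) (hc : IsCompact K) (hv : Convex ℝ K) {p : Fin n → ℝ}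
    (hp : p ∈ K) (hp' : p + Pi.single i 1 ∈ K) (c : ℝ) :
    volume.real (symm i K) ≤ 36 * (n : ℝ) ^ 2 * ∫ x in symm i K, (x i - c) ^ 2 := by
  have hS := isCompact_symm (i := i) hc
  set S := symm i K with hSdef
  have hpt : ∀ s : ℝ, |s| ≤ 1 / 2 → update p i s ∈ S := by
    intro s hs
    refine ⟨p i, by simp [hp], ?_⟩
    have : update (update p i s) i (p i + 2 * |update p i s i|) =
        (1 - 2 * |s|) • p + (2 * |s|) • (p + Pi.single i 1) := by
      funext l
      rcases eq_or_ne l i with rfl | hl
      · simp; ring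
      · simp [hl]; ring
    rw [this]
    exact hv hp hp' (by linarith) (by positivity) (by ring)
  have hn0 : (0:ℝ) < n := by exact_mod_cast (show 0 < n by omega)
  set r : ℝ := 1 - 1 / n with hr
  have hr0 : 1 / 2 ≤ r := by
    have : (1:ℝ) / n ≤ 1 / 2 := one_div_le_one_div_of_le two_pos (by exact_mod_cast hn)
    linarith
  have hr1 : r ≤ 1 := by rw [hr]; linarith [one_div_pos.2 hn0]
  have hM : (r • (1 : Matrix (Fin n) (Fin n) ℝ)).det = r ^ n := by simp
  have hkey : ∀ s : ℝ, |s| ≤ 1 / 2 →
      r ^ n * ∫ x in S, (r * x i + s / n - c) ^ 2 ≤ ∫ x in S, (x i - c) ^ 2 := by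
    intro s hs
    have hsub : (fun x => r • x + (1 / (n:ℝ)) • update p i s) '' S ⊆ S := by
      rintro _ ⟨x, hx, rfl⟩
      exact convex_symm hv hx (hpt s hs) (by linarith) (by positivity) (by rw [hr]; ring)
    refine le_trans (le_of_eq ?_) (setIntegral_mono_set
      (((continuous_apply i).sub continuous_const).pow 2 |>.continuousOn.integrableOn_compact hS)
      (Eventually.of_forall fun x => sq_nonneg (x i - c)) hsub.eventuallyLE)
    rw [show (fun x => r • x + (1 / (n:ℝ)) • update p i s) =
        fun x => (r • (1 : Matrix (Fin n) (Fin n) ℝ)) *ᵥ x + (1 / (n:ℝ)) • update p i s from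
          funext fun x => by simp [Matrix.smul_mulVec],
      Three.integral_affine _ (by rw [hM]; positivity) _ _ fun x => (x i - c) ^ 2, hM,
      abs_of_nonneg (by positivity : (0:ℝ) ≤ r ^ n)]
    refine congrArg _ (integral_congr_ae (Eventually.of_forall fun x => ?_))
    simp [Matrix.smul_mulVec]
    ring
  have h1 := hkey (1 / 2) (by norm_num)
  have h2 := hkey (-(1 / 2)) (by norm_num)
  have hint : ∀ s : ℝ, IntegrableOn (fun x => (r * x i + s / n - c) ^ 2) S := fun s =>
    (by fun_prop : Continuous fun x : Fin n → ℝ => (r * x i + s / n - c) ^ 2).continuousOn.integrableOn_compact hS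
  have h3 : volume.real S * (1 / (2 * (n:ℝ) ^ 2)) ≤
      (∫ x in S, (r * x i + 1 / 2 / n - c) ^ 2) + ∫ x in S, (r * x i + -(1 / 2) / n - c) ^ 2 := by
    rw [← integral_add (hint _) (hint _)]
    have := setIntegral_mono (integrableOn_const (hs := hS.measure_lt_top.ne) (C := 1 / (2 * (n:ℝ) ^ 2)))
      ((hint (1 / 2)).add (hint (-(1 / 2)))) (s := S) fun x => by
        show 1 / (2 * (n:ℝ) ^ 2) ≤ (r * x i + 1 / 2 / n - c) ^ 2 + (r * x i + -(1 / 2) / n - c) ^ 2
        have : 1 / (2 * (n:ℝ) ^ 2) = 2 * (1 / 2 / (n:ℝ)) ^ 2 := by field_simp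
        rw [this]
        have e : (r * x i + -(1 / 2) / (n:ℝ) - c) = r * x i - c - 1 / 2 / n := by ring
        rw [e]; nlinarith [sq_nonneg (r * x i - c)]
    simpa using this
  have h4 : (1:ℝ) / 9 ≤ r ^ n := by
    have hb : ∀ k : ℕ, 2 ≤ k → (1:ℝ) / 9 ≤ (1 - 1 / (k:ℝ)) ^ k := by
      intro k hk
      have hk0 : (0:ℝ) < k := by exact_mod_cast (show 0 < k by omega)
      have hx : (1:ℝ) / k ≤ 1 / 2 := one_div_le_one_div_of_le two_pos (by exact_mod_cast hk)
      have : (1 - 1 / (k:ℝ)) ^ k ≥ Real.exp (-(1 / (1 - 1 / (k:ℝ)))) := by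
        have h := Real.one_sub_inv_le_log_of_pos (show 0 < 1 - 1 / (k:ℝ) by linarith)
        rw [ge_iff_le, ← Real.exp_log (show 0 < (1 - 1 / (k:ℝ)) ^ k from pow_pos (by linarith) k),
          Real.log_pow,
          Real.exp_le_exp]
        refine le_trans (le_of_eq ?_) (mul_le_mul_of_nonneg_left h hk0.le)
        have : (k:ℝ) - 1 ≠ 0 := by
          have : (2:ℝ) ≤ k := by exact_mod_cast hk
          linarith
        field_simp
        ring
      refine le_trans ?_ this
      refine le_trans ?_ (Real.exp_le_exp.2 (show (-2:ℝ) ≤ _ by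
        rw [neg_le_neg_iff, div_le_iff₀ (by linarith)]; linarith))
      have : Real.exp 2 ≤ 9 := by
        rw [show (2:ℝ) = 1 + 1 by norm_num, Real.exp_add]
        nlinarith [Real.exp_one_lt_three, Real.exp_pos (1:ℝ)]
      rw [Real.exp_neg, one_div, inv_le_inv₀ (by norm_num) (Real.exp_pos _)]
      linarith
    exact hb n hn
  have h5 : 0 ≤ volume.real S * (1 / (2 * (n:ℝ) ^ 2)) := by positivity
  have h6 := mul_le_mul h4 h3 h5 (by positivity)
  have h7 : volume.real S / (18 * (n:ℝ) ^ 2) ≤ 2 * ∫ x in S, (x i - c) ^ 2 := by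
    refine le_trans (le_of_eq ?_) (h6.trans (by linarith))
    field_simp
    ring
  rw [div_le_iff₀ (by positivity)] at h7
  linarith

end Vale.Agent.P254.Refl
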